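import Vale.Agent.P098.R.FDefs
import Vale.Agent.P098.Bdl.B30
import Vale.Agent.P098C.Main

/-!
The critical dimension of the one-phase Bernoulli problem is seven: (1) seven is the least
dimension `d ≥ 1` such that `ℝ^d` carries a nonzero, nonflat, one-homogeneous global minimizer;
(2) an explicit such minimizer in `ℝ^7 = ℝ^3 × ℝ^4`.
-/

open MeasureTheory Vale.Agent.P098.FDefs
open scoped RealInnerProductSpace

theorem Vale.Agent.Results.P098.ACriticalSeven.result :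
    IsLeast {d : ℕ | 1 ≤ d ∧ ∃ u : EuclideanSpace ℝ (Fin d) → ℝ,
      IsGlobalMinimizer u ∧ IsOneHomogeneous u ∧ ¬ (u =ᵐ[volume] fun _ => 0) ∧
        ¬ ∃ e : EuclideanSpace ℝ (Fin d), ‖e‖ = 1 ∧ u =ᵐ[volume] fun x => max ⟪x, e⟫ 0} 7 ∧
    IsGlobalMinimizer fun x : EuclideanSpace ℝ (Fin 7) =>
      max (√(x 0 ^ 2 + x 1 ^ 2 + x 2 ^ 2) -
        (x 3 ^ 2 + x 4 ^ 2 + x 5 ^ 2 + x 6 ^ 2) / (4 * √(x 0 ^ 2 + x 1 ^ 2 + x 2 ^ 2))) 0 / √5 := by
  refine ⟨⟨⟨by norm_num, Vale.Agent.P098C.uu, Vale.Agent.P098C.uu_min, Vale.Agent.P098C.uu_hom,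
    Vale.Agent.P098C.uu_ne_zero, Vale.Agent.P098C.uu_not_flat⟩, ?_⟩, ?_⟩
  · rintro d ⟨h1, u, hu, hh, h0, hf⟩
    by_contra h7
    rcases Vale.Agent.P098.flat_le_six h1 (by omega) u hu hh with h | h
    · exact h0 h
    · exact hf h
  · rw [← Vale.Agent.P098C.uu_eq]
    exact Vale.Agent.P098C.uu_min
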